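import Vale.Agent.P050.Lift

/-!
P050, TP2 kernels: averaging over all lifts.
-/

namespace Vale.Agent.P050

open Finset Filter Topology

section per

variable {X Y : Type} [Fintype X] [DecidableEq X] [Fintype Y] [DecidableEq Y]

/-- the permanent of the matrix `W (u i) (v j)` -/
def per {k : ℕ} (W : X → Y → ℝ) (u : Fin k → X) (v : Fin k → Y) : ℝ :=
  ∑ π : Equiv.Perm (Fin k), ∏ i, W (u i) (v (π i))

theorem per_left {k : ℕ} (W : X → Y → ℝ) (u : Fin k → X) (v : Fin k → Y)
    (τ : Equiv.Perm (Fin k)) : per W (u ∘ τ) v = per W u v := by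
  unfold per
  refine Fintype.sum_equiv (Equiv.mulRight τ⁻¹) _ _ fun π => ?_
  refine Fintype.prod_equiv τ _ _ fun i => ?_
  simp

theorem per_right {k : ℕ} (W : X → Y → ℝ) (u : Fin k → X) (v : Fin k → Y)
    (τ : Equiv.Perm (Fin k)) : per W u (v ∘ τ) = per W u v := by
  unfold per
  refine Fintype.sum_equiv (Equiv.mulLeft τ) _ _ fun π => ?_
  rfl

theorem per_nonneg {k : ℕ} {W : X → Y → ℝ} (hW : ∀ x y, 0 ≤ W x y) (u : Fin k → X)
    (v : Fin k → Y) : 0 ≤ per W u v :=
  Finset.sum_nonneg fun _ _ => Finset.prod_nonneg fun _ _ => hW _ _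

/-- the type of a sequence -/
def cnt {k : ℕ} (u : Fin k → X) : X → Fin (k + 1) := fun x =>
  ⟨(Finset.univ.filter fun i => u i = x).card,
    Nat.lt_succ_of_le ((Finset.card_filter_le _ _).trans (by simp))⟩

theorem exists_perm {k : ℕ} {u u' : Fin k → X} (h : cnt u = cnt u') :
    ∃ τ : Equiv.Perm (Fin k), u' = u ∘ τ := by
  have h1 : ∀ x, (Finset.univ.filter fun i => u' i = x).card =
      (Finset.univ.filter fun i => u i = x).card := fun x => by
    have := congrArg Fin.val (congrFun h x)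
    exact this.symm
  have h2 : ∀ x, Nonempty ({i // u' i = x} ≃ {i // u i = x}) := by
    intro x
    apply Fintype.card_eq.1
    rw [Fintype.card_subtype, Fintype.card_subtype]
    exact h1 x
  refine ⟨Equiv.ofFiberEquiv (fun x => (h2 x).some), ?_⟩
  funext i
  exact (Equiv.ofFiberEquiv_map (fun x => (h2 x).some) i).symm

theorem per_eq {k : ℕ} (W : X → Y → ℝ) {u u' : Fin k → X} {v v' : Fin k → Y}
    (hu : cnt u = cnt u') (hv : cnt v = cnt v') : per W u' v' = per W u v := by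
  obtain ⟨τ, rfl⟩ := exists_perm hu
  obtain ⟨τ', rfl⟩ := exists_perm hv
  rw [per_left, per_right]

theorem sum_per (k : ℕ) (W : X → Y → ℝ) :
    ∑ z : (Fin k → X) × (Fin k → Y), per W z.1 z.2 =
      (k.factorial : ℝ) * (∑ x, ∑ y, W x y) ^ k := by
  unfold per
  rw [Finset.sum_comm]
  have h1 : ∀ π : Equiv.Perm (Fin k), ∑ z : (Fin k → X) × (Fin k → Y),
      ∏ i, W (z.1 i) (z.2 (π i)) = (∑ x, ∑ y, W x y) ^ k := by
    intro π
    have h2 : (∑ x, ∑ y, W x y) ^ k = ∑ w : Fin k → X × Y, ∏ i, W (w i).1 (w i).2 := by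
      rw [← Fintype.sum_prod_type']
      have := Finset.prod_univ_sum (fun _ : Fin k => (Finset.univ : Finset (X × Y)))
        (fun _ w => W w.1 w.2)
      rw [Fintype.piFinset_univ] at this
      rw [← this, Finset.prod_const, Finset.card_univ, Fintype.card_fin]
    rw [h2]
    refine Fintype.sum_equiv (((Equiv.refl (Fin k → X)).prodCongr
      (Equiv.arrowCongr π.symm (Equiv.refl Y))).trans
      (Equiv.arrowProdEquivProdArrow (Fin k) (fun _ => X) (fun _ => Y)).symm) _ _ fun z => ?_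
    rfl
  rw [Finset.sum_congr rfl fun π _ => h1 π, Finset.sum_const, Finset.card_univ, Fintype.card_perm,
    Fintype.card_fin, nsmul_eq_mul]

/-- a pair of types which carries a polynomial fraction of the sum -/
theorem pigeon (k : ℕ) (W : X → Y → ℝ) :
    ∃ (c : X → Fin (k + 1)) (c' : Y → Fin (k + 1)),
      (k.factorial : ℝ) * (∑ x, ∑ y, W x y) ^ k ≤
      ((k : ℝ) + 1) ^ (Fintype.card X + Fintype.card Y) *
        ∑ z ∈ Finset.univ.filter (fun z : (Fin k → X) × (Fin k → Y) =>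
          cnt z.1 = c ∧ cnt z.2 = c'), per W z.1 z.2 := by
  by_contra hcon
  push Not at hcon
  have h1 : ∑ z : (Fin k → X) × (Fin k → Y), per W z.1 z.2 =
      ∑ cc : (X → Fin (k + 1)) × (Y → Fin (k + 1)),
        ∑ z ∈ Finset.univ.filter (fun z : (Fin k → X) × (Fin k → Y) =>
          cnt z.1 = cc.1 ∧ cnt z.2 = cc.2), per W z.1 z.2 := by
    rw [← Finset.sum_fiberwise_of_maps_to (s := Finset.univ) (t := Finset.univ)
      (g := fun z : (Fin k → X) × (Fin k → Y) => (cnt z.1, cnt z.2))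
      (fun z _ => Finset.mem_univ _)]
    refine Finset.sum_congr rfl fun cc _ => ?_
    refine Finset.sum_congr ?_ fun _ _ => rfl
    ext z
    simp [Prod.ext_iff]
  have h2 : ((k : ℝ) + 1) ^ (Fintype.card X + Fintype.card Y) *
      ∑ z : (Fin k → X) × (Fin k → Y), per W z.1 z.2 <
      ∑ _cc : (X → Fin (k + 1)) × (Y → Fin (k + 1)),
        (k.factorial : ℝ) * (∑ x, ∑ y, W x y) ^ k := by
    rw [h1, Finset.mul_sum]
    exact Finset.sum_lt_sum_of_nonempty ⟨(fun _ => 0, fun _ => 0), Finset.mem_univ _⟩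
      fun cc _ => hcon cc.1 cc.2
  rw [sum_per, Finset.sum_const, Finset.card_univ, nsmul_eq_mul, Fintype.card_prod,
    Fintype.card_fun, Fintype.card_fun, Fintype.card_fin] at h2
  push_cast at h2
  rw [pow_add] at h2
  exact lt_irrefl _ h2

end per

section main

variable {A B E : Type} [Fintype A] [DecidableEq A] [Fintype B] [DecidableEq B] [Fintype E]
  [DecidableEq E]

theorem aux_pow {n K : ℝ} (hn : 0 ≤ n) (hnK : n ≤ K) {a e m : ℕ} (hae : a ≤ e) (ham : a ≤ m) :
    n ^ e * K ^ m ≤ (n ^ a * K ^ (m - a)) * K ^ e := by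
  have h1 : n ^ e = n ^ a * n ^ (e - a) := by rw [← pow_add]; congr 1; omega
  have h2 : n ^ (e - a) ≤ K ^ (e - a) := pow_le_pow_left₀ hn hnK _
  have h3 : K ^ (e - a) * K ^ m = K ^ (m - a) * K ^ e := by
    rw [← pow_add, ← pow_add]; congr 1; omega
  have hK : 0 ≤ K := hn.trans hnK
  calc n ^ e * K ^ m = n ^ a * (n ^ (e - a) * K ^ m) := by rw [h1]; ring
    _ ≤ n ^ a * (K ^ (e - a) * K ^ m) := by gcongr
    _ = _ := by rw [h3]; ring

theorem card_pi {A Z : Type} [Fintype A] [DecidableEq A] [Fintype Z] [DecidableEq Z]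
    (A0 : Finset A) (T : Finset Z) :
    (Fintype.piFinset (fun a : A => if a ∈ A0 then T else Finset.univ)).card =
      T.card ^ A0.card * (Fintype.card Z) ^ (Fintype.card A - A0.card) := by
  rw [Fintype.card_piFinset]
  have : ∀ a : A, (if a ∈ A0 then T else Finset.univ : Finset Z).card =
      if a ∈ A0 then T.card else Fintype.card Z := by
    intro a
    split_ifs
    · rfl
    · exact Finset.card_univ
  simp_rw [this]
  rw [Finset.prod_ite, Finset.prod_const, Finset.prod_const]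
  congr 2
  · congr 1
    simp
  · have := Finset.card_filter_add_card_filter_not (s := (Finset.univ : Finset A)) (fun a => a ∈ A0)
    rw [Finset.card_univ] at this
    have h2 : (Finset.univ.filter fun a => a ∈ A0).card = A0.card := by simp
    omega

theorem avg_bound (α : E → A) (β : E → B) {N M : ℕ} (W : Fin N → Fin M → ℝ)
    (hW0 : ∀ x y, 0 ≤ W x y) (hW : TP2 W) (k : ℕ) :
    (∑ x, ∑ y, W x y) ^ (k * Fintype.card E) * (((N : ℝ) ^ k) ^ Fintype.card A *
      ((M : ℝ) ^ k) ^ Fintype.card B) ≤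
    (((k : ℝ) + 1) ^ (N + M)) ^ Fintype.card E * (((N : ℝ) ^ k) ^ Fintype.card E *
      ((M : ℝ) ^ k) ^ Fintype.card E) * homW α β W ^ k := by
  classical
  set D : ℝ := ∑ x, ∑ y, W x y with hD
  have hD0 : 0 ≤ D := Finset.sum_nonneg fun _ _ => Finset.sum_nonneg fun _ _ => hW0 _ _
  set e : ℕ := Fintype.card E with he
  -- the average of the lift inequality
  have h3 : ∑ z : (A → Fin k → Fin N) × (B → Fin k → Fin M),
      ∏ ed, per W (z.1 (α ed)) (z.2 (β ed)) ≤ (k.factorial : ℝ) ^ e * homW α β W ^ k := by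
    have h4 : ∀ z : (A → Fin k → Fin N) × (B → Fin k → Fin M),
        ∏ ed, per W (z.1 (α ed)) (z.2 (β ed)) = ∑ σ : E → Equiv.Perm (Fin k),
          ∏ ed, ∏ i, W (z.1 (α ed) i) (z.2 (β ed) (σ ed i)) := by
      intro z
      unfold per
      rw [Finset.prod_univ_sum, Fintype.piFinset_univ]
    rw [Finset.sum_congr rfl fun z _ => h4 z, Finset.sum_comm]
    have h5 : ∑ σ : E → Equiv.Perm (Fin k), ∑ z : (A → Fin k → Fin N) × (B → Fin k → Fin M),
        ∏ ed, ∏ i, W (z.1 (α ed) i) (z.2 (β ed) (σ ed i)) ≤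
        ∑ _σ : E → Equiv.Perm (Fin k), homW α β W ^ k :=
      Finset.sum_le_sum fun σ _ => lift_le α β W hW0 hW k σ
    refine h5.trans (le_of_eq ?_)
    rw [Finset.sum_const, Finset.card_univ, Fintype.card_fun, Fintype.card_perm, Fintype.card_fin,
      nsmul_eq_mul]
    push_cast
    rfl
  obtain ⟨c, c', hc⟩ := pigeon k W
  rw [Fintype.card_fin, Fintype.card_fin] at hc
  set T : Finset (Fin k → Fin N) := Finset.univ.filter (fun u => cnt u = c) with hT
  set T' : Finset (Fin k → Fin M) := Finset.univ.filter (fun v => cnt v = c') with hT'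
  -- the constant value of the permanent
  obtain ⟨q, hq0, hq⟩ : ∃ q : ℝ, 0 ≤ q ∧ ∀ u ∈ T, ∀ v ∈ T', per W u v = q := by
    by_cases h : ∃ u ∈ T, ∃ v ∈ T', True
    · obtain ⟨u, hu, v, hv, _⟩ := h
      refine ⟨per W u v, per_nonneg hW0 _ _, fun u' hu' v' hv' => ?_⟩
      refine per_eq W ?_ ?_
      · rw [(Finset.mem_filter.1 hu).2, (Finset.mem_filter.1 hu').2]
      · rw [(Finset.mem_filter.1 hv).2, (Finset.mem_filter.1 hv').2]
    · exact ⟨0, le_rfl, fun u hu v hv => absurd ⟨u, hu, v, hv, trivial⟩ h⟩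
  have hsum : ∑ z ∈ Finset.univ.filter (fun z : (Fin k → Fin N) × (Fin k → Fin M) =>
      cnt z.1 = c ∧ cnt z.2 = c'), per W z.1 z.2 = (T.card : ℝ) * T'.card * q := by
    have h6 : Finset.univ.filter (fun z : (Fin k → Fin N) × (Fin k → Fin M) =>
      cnt z.1 = c ∧ cnt z.2 = c') = T ×ˢ T' := by
      ext z
      simp [hT, hT', Finset.mem_product]
    rw [h6, Finset.sum_congr rfl (fun z hz => hq z.1 (Finset.mem_product.1 hz).1 z.2
      (Finset.mem_product.1 hz).2), Finset.sum_const, Finset.card_product, nsmul_eq_mul]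
    push_cast
    rfl
  rw [hsum] at hc
  -- lower bound for the averaged sum
  set A0 : Finset A := Finset.univ.image α with hA0
  set B0 : Finset B := Finset.univ.image β with hB0
  have hA0e : A0.card ≤ e := Finset.card_image_le.trans (by rw [Finset.card_univ])
  have hB0e : B0.card ≤ e := Finset.card_image_le.trans (by rw [Finset.card_univ])
  have hA0m : A0.card ≤ Fintype.card A := Finset.card_le_univ _
  have hB0m : B0.card ≤ Fintype.card B := Finset.card_le_univ _
  set ZA := Fintype.piFinset (fun a : A => if a ∈ A0 then T else Finset.univ) with hZA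
  set ZB := Fintype.piFinset (fun b : B => if b ∈ B0 then T' else Finset.univ) with hZB
  have h7 : ((ZA.card : ℝ) * ZB.card) * q ^ e ≤
      ∑ z : (A → Fin k → Fin N) × (B → Fin k → Fin M),
        ∏ ed, per W (z.1 (α ed)) (z.2 (β ed)) := by
    have h8 : ∑ z ∈ ZA ×ˢ ZB, ∏ ed, per W (z.1 (α ed)) (z.2 (β ed)) =
        ((ZA.card : ℝ) * ZB.card) * q ^ e := by
      have h9 : ∀ z ∈ ZA ×ˢ ZB, ∏ ed, per W (z.1 (α ed)) (z.2 (β ed)) = q ^ e := by
        intro z hz
        obtain ⟨hz1, hz2⟩ := Finset.mem_product.1 hz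
        rw [Fintype.mem_piFinset] at hz1 hz2
        rw [Finset.prod_congr rfl (fun ed _ => hq (z.1 (α ed)) ?_ (z.2 (β ed)) ?_),
          Finset.prod_const, Finset.card_univ]
        · have := hz1 (α ed)
          rw [if_pos (Finset.mem_image_of_mem α (Finset.mem_univ ed))] at this
          exact this
        · have := hz2 (β ed)
          rw [if_pos (Finset.mem_image_of_mem β (Finset.mem_univ ed))] at this
          exact this
      rw [Finset.sum_congr rfl h9, Finset.sum_const, Finset.card_product, nsmul_eq_mul]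
      push_cast
      rfl
    rw [← h8]
    exact Finset.sum_le_sum_of_subset_of_nonneg (Finset.subset_univ _) fun z _ _ =>
      Finset.prod_nonneg fun _ _ => per_nonneg hW0 _ _
  have hcA : (ZA.card : ℝ) = (T.card : ℝ) ^ A0.card *
      ((N : ℝ) ^ k) ^ (Fintype.card A - A0.card) := by
    rw [hZA, card_pi, Fintype.card_fun, Fintype.card_fin, Fintype.card_fin]
    push_cast
    rfl
  have hcB : (ZB.card : ℝ) = (T'.card : ℝ) ^ B0.card *
      ((M : ℝ) ^ k) ^ (Fintype.card B - B0.card) := by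
    rw [hZB, card_pi, Fintype.card_fun, Fintype.card_fin, Fintype.card_fin]
    push_cast
    rfl
  have hTN : (T.card : ℝ) ≤ (N : ℝ) ^ k := by
    have : T.card ≤ N ^ k := by
      refine (Finset.card_le_univ T).trans ?_
      rw [Fintype.card_fun, Fintype.card_fin, Fintype.card_fin]
    exact_mod_cast this
  have hTM : (T'.card : ℝ) ≤ (M : ℝ) ^ k := by
    have : T'.card ≤ M ^ k := by
      refine (Finset.card_le_univ T').trans ?_
      rw [Fintype.card_fun, Fintype.card_fin, Fintype.card_fin]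
    exact_mod_cast this
  have a1 := aux_pow (Nat.cast_nonneg T.card) hTN hA0e hA0m
  have a2 := aux_pow (Nat.cast_nonneg T'.card) hTM hB0e hB0m
  rw [← hcA] at a1
  rw [← hcB] at a2
  have hfac : (0 : ℝ) < (k.factorial : ℝ) ^ e := by positivity
  have h10 : ((k.factorial : ℝ) * D ^ k) ^ e ≤
      (((k : ℝ) + 1) ^ (N + M) * ((T.card : ℝ) * T'.card * q)) ^ e :=
    pow_le_pow_left₀ (by positivity) hc e
  refine le_of_mul_le_mul_left ?_ hfac
  set NK : ℝ := (N : ℝ) ^ k with hNK
  set MK : ℝ := (M : ℝ) ^ k with hMK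
  set P : ℝ := ((k : ℝ) + 1) ^ (N + M) with hP
  have hNK0 : 0 ≤ NK := by positivity
  have hMK0 : 0 ≤ MK := by positivity
  have hP0 : 0 ≤ P := by positivity
  calc (k.factorial : ℝ) ^ e * (D ^ (k * e) * (NK ^ Fintype.card A * MK ^ Fintype.card B))
      = ((k.factorial : ℝ) * D ^ k) ^ e * (NK ^ Fintype.card A * MK ^ Fintype.card B) := by
        rw [mul_pow, ← pow_mul]; ring
    _ ≤ (P * ((T.card : ℝ) * T'.card * q)) ^ e * (NK ^ Fintype.card A * MK ^ Fintype.card B) := by
        gcongr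
    _ = P ^ e * q ^ e * (((T.card : ℝ) ^ e * NK ^ Fintype.card A) *
        ((T'.card : ℝ) ^ e * MK ^ Fintype.card B)) := by
        rw [mul_pow, mul_pow, mul_pow]; ring
    _ ≤ P ^ e * q ^ e * (((ZA.card : ℝ) * NK ^ e) * ((ZB.card : ℝ) * MK ^ e)) := by
        gcongr
    _ = P ^ e * (NK ^ e * MK ^ e) * (((ZA.card : ℝ) * ZB.card) * q ^ e) := by ring
    _ ≤ P ^ e * (NK ^ e * MK ^ e) * ((k.factorial : ℝ) ^ e * homW α β W ^ k) := by
        exact mul_le_mul_of_nonneg_left (h7.trans h3) (by positivity)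
    _ = (k.factorial : ℝ) ^ e * (P ^ e * (NK ^ e * MK ^ e) * homW α β W ^ k) := by ring

theorem le_of_pow_le {a b : ℝ} (hb : 0 ≤ b) (m : ℕ)
    (h : ∀ k : ℕ, a ^ k ≤ ((k : ℝ) + 1) ^ m * b ^ k) : a ≤ b := by
  by_contra hcon
  push Not at hcon
  have ha0 : 0 < a := lt_of_le_of_lt hb hcon
  rcases hb.eq_or_lt with hb0 | hb0
  · have := h 1
    rw [← hb0] at this
    simp at this
    linarith
  · set r : ℝ := b / a with hr
    have hr0 : 0 < r := by positivity
    have hr1 : r < 1 := (div_lt_one ha0).2 hcon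
    have h1 : ∀ k : ℕ, r ≤ ((k + 1 : ℕ) : ℝ) ^ m * r ^ (k + 1) := by
      intro k
      have h2 := h k
      have h3 : 1 ≤ ((k : ℝ) + 1) ^ m * r ^ k := by
        rw [hr, div_pow, ← mul_div_assoc, le_div_iff₀ (by positivity), one_mul]
        exact h2
      push_cast
      calc r = 1 * r := (one_mul r).symm
        _ ≤ (((k : ℝ) + 1) ^ m * r ^ k) * r := mul_le_mul_of_nonneg_right h3 hr0.le
        _ = _ := by rw [pow_succ]; ring
    have h4 := tendsto_pow_const_mul_const_pow_of_abs_lt_one m (r := r)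
      (by rw [abs_of_pos hr0]; exact hr1)
    have h5 := h4.comp (tendsto_add_atTop_nat 1)
    have h6 : r ≤ 0 := ge_of_tendsto' h5 h1
    linarith

/-- **Sidorenko's inequality for TP2 kernels on chains.** -/
theorem sidorenko_chain (α : E → A) (β : E → B) {N M : ℕ} (hN : 0 < N) (hM : 0 < M)
    (W : Fin N → Fin M → ℝ) (hW0 : ∀ x y, 0 ≤ W x y) (hW : TP2 W) :
    ((∑ x, ∑ y, W x y) / ((N : ℝ) * M)) ^ Fintype.card E ≤
      homW α β W / ((N : ℝ) ^ Fintype.card A * (M : ℝ) ^ Fintype.card B) := by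
  have hN' : (0 : ℝ) < N := by exact_mod_cast hN
  have hM' : (0 : ℝ) < M := by exact_mod_cast hM
  have hD0 : 0 ≤ ∑ x, ∑ y, W x y :=
    Finset.sum_nonneg fun _ _ => Finset.sum_nonneg fun _ _ => hW0 _ _
  have hS0 : 0 ≤ homW α β W := Finset.sum_nonneg fun _ _ => Finset.prod_nonneg fun _ _ => hW0 _ _
  refine le_of_pow_le (by positivity) ((N + M) * Fintype.card E) fun k => ?_
  have h := avg_bound α β W hW0 hW k
  set e := Fintype.card E
  set D := ∑ x, ∑ y, W x y
  set S := homW α β W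
  have e1 : ((D / ((N : ℝ) * M)) ^ e) ^ k = D ^ (k * e) / (((N : ℝ) ^ k) ^ e * ((M : ℝ) ^ k) ^ e) := by
    rw [← pow_mul, div_pow, mul_pow, mul_comm e k, pow_mul (N : ℝ), pow_mul (M : ℝ)]
  have e2 : (S / ((N : ℝ) ^ Fintype.card A * (M : ℝ) ^ Fintype.card B)) ^ k =
      S ^ k / (((N : ℝ) ^ k) ^ Fintype.card A * ((M : ℝ) ^ k) ^ Fintype.card B) := by
    rw [div_pow, mul_pow, ← pow_mul, ← pow_mul, ← pow_mul, ← pow_mul, mul_comm _ k,
      mul_comm _ k]
  rw [e1, e2, pow_mul ((k : ℝ) + 1) (N + M) e, div_le_iff₀ (by positivity)]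
  have e3 : (((k : ℝ) + 1) ^ (N + M)) ^ e * (S ^ k / (((N : ℝ) ^ k) ^ Fintype.card A *
      ((M : ℝ) ^ k) ^ Fintype.card B)) * (((N : ℝ) ^ k) ^ e * ((M : ℝ) ^ k) ^ e) =
      ((((k : ℝ) + 1) ^ (N + M)) ^ e * (((N : ℝ) ^ k) ^ e * ((M : ℝ) ^ k) ^ e) * S ^ k) /
      (((N : ℝ) ^ k) ^ Fintype.card A * ((M : ℝ) ^ k) ^ Fintype.card B) := by
    ring
  rw [e3, le_div_iff₀ (by positivity)]
  exact h

end main

end Vale.Agent.P050
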