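import Vale.Agent.P050.Pos

/-!
P050, TP2 kernels: probability spaces, by sampling.
-/

namespace Vale.Agent.P050

open Finset MeasureTheory Filter Topology

section pimap

variable {A I Ω : Type} [Fintype A] [Fintype I] [DecidableEq I] [MeasurableSpace Ω]
  (μ : Measure Ω) [IsProbabilityMeasure μ]

theorem mp_comp (φ : A → I) (hφ : Function.Injective φ) :
    MeasurePreserving (fun x : I → Ω => fun a => x (φ a)) (Measure.pi fun _ => μ)
      (Measure.pi fun _ => μ) := by
  classical
  have hmeas : Measurable (fun x : I → Ω => fun a => x (φ a)) :=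
    measurable_pi_lambda _ fun a => measurable_pi_apply _
  refine ⟨hmeas, ?_⟩
  symm
  refine Measure.pi_eq fun s hs => ?_
  rw [Measure.map_apply hmeas (MeasurableSet.univ_pi hs)]
  let t : I → Set Ω := fun i => if h : ∃ a, φ a = i then s h.choose else Set.univ
  have ht : ∀ a, t (φ a) = s a := by
    intro a
    have h : ∃ a', φ a' = φ a := ⟨a, rfl⟩
    simp only [t]
    rw [dif_pos h, hφ h.choose_spec]
  have h1 : (fun x : I → Ω => fun a => x (φ a)) ⁻¹' (Set.univ.pi s) = Set.univ.pi t := by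
    ext x
    simp only [Set.mem_preimage, Set.mem_pi, Set.mem_univ, forall_true_left]
    constructor
    · intro h i
      by_cases hi : ∃ a, φ a = i
      · obtain ⟨a, rfl⟩ := hi
        rw [ht]
        exact h a
      · simp only [t]
        rw [dif_neg hi]
        trivial
    · intro h a
      have := h (φ a)
      rwa [ht] at this
  rw [h1, Measure.pi_pi]
  have h2 : ∏ i, μ (t i) = ∏ i ∈ Finset.univ.image φ, μ (t i) := by
    symm
    refine Finset.prod_subset (Finset.subset_univ _) fun i _ hi => ?_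
    have : ¬ ∃ a, φ a = i := by
      rintro ⟨a, rfl⟩
      exact hi (Finset.mem_image_of_mem φ (Finset.mem_univ a))
    simp only [t]
    rw [dif_neg this, measure_univ]
  rw [h2, Finset.prod_image fun a _ b _ h => hφ h]
  exact Finset.prod_congr rfl fun a _ => by rw [ht]

end pimap

section main

variable {A B E : Type} [Fintype A] [DecidableEq A] [Fintype B] [DecidableEq B] [Fintype E]
  [DecidableEq E] {Ω Ω' : Type} [MeasurableSpace Ω] [MeasurableSpace Ω'] (μ : Measure Ω)
  [IsProbabilityMeasure μ] (ν : Measure Ω') [IsProbabilityMeasure ν]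

/-- homomorphism density of the bipartite graph given by `α, β` -/
noncomputable def tden (α : E → A) (β : E → B) (W : Ω → Ω' → ℝ) : ℝ :=
  ∫ z : (A → Ω) × (B → Ω'), ∏ e, W (z.1 (α e)) (z.2 (β e))
    ∂((Measure.pi fun _ => μ).prod (Measure.pi fun _ => ν))

variable {μ ν}

theorem meas_prod {I J : Type} (α : E → I) (β : E → J) {W : Ω → Ω' → ℝ}
    (hW : Measurable (Function.uncurry W)) :
    Measurable fun z : (I → Ω) × (J → Ω') => ∏ e, W (z.1 (α e)) (z.2 (β e)) := by
  refine Finset.measurable_prod _ fun e _ => ?_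
  have h1 : Measurable fun z : (I → Ω) × (J → Ω') => (z.1 (α e), z.2 (β e)) :=
    ((measurable_pi_apply _).comp measurable_fst).prodMk
      ((measurable_pi_apply _).comp measurable_snd)
  exact hW.comp h1

theorem bd_prod {I J : Type} (α : E → I) (β : E → J) {W : Ω → Ω' → ℝ}
    (hW0 : ∀ x y, 0 ≤ W x y) {C : ℝ} (hC : ∀ x y, W x y ≤ C) (z : (I → Ω) × (J → Ω')) :
    0 ≤ ∏ e, W (z.1 (α e)) (z.2 (β e)) ∧
      ∏ e, W (z.1 (α e)) (z.2 (β e)) ≤ C ^ Fintype.card E := by
  refine ⟨Finset.prod_nonneg fun _ _ => hW0 _ _, ?_⟩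
  calc ∏ e, W (z.1 (α e)) (z.2 (β e)) ≤ ∏ _e : E, C :=
        Finset.prod_le_prod (fun _ _ => hW0 _ _) fun _ _ => hC _ _
    _ = C ^ Fintype.card E := by rw [Finset.prod_const, Finset.card_univ]

theorem int_prod {I J : Type} [Fintype I] [Fintype J] (α : E → I) (β : E → J) {W : Ω → Ω' → ℝ}
    (hW : Measurable (Function.uncurry W)) (hW0 : ∀ x y, 0 ≤ W x y) {C : ℝ}
    (hC : ∀ x y, W x y ≤ C) :
    Integrable (fun z : (I → Ω) × (J → Ω') => ∏ e, W (z.1 (α e)) (z.2 (β e)))
      ((Measure.pi fun _ => μ).prod (Measure.pi fun _ => ν)) := by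
  refine Integrable.of_bound (meas_prod α β hW).aestronglyMeasurable (C ^ Fintype.card E)
    (Eventually.of_forall fun z => ?_)
  obtain ⟨h1, h2⟩ := bd_prod α β hW0 hC z
  rw [Real.norm_eq_abs, abs_of_nonneg h1]
  exact h2

theorem ratio_tendsto (a : ℕ) :
    Tendsto (fun n : ℕ => (n.descFactorial a : ℝ) / (n : ℝ) ^ a) atTop (𝓝 1) := by
  have h1 : ∀ i : ℕ, Tendsto (fun n : ℕ => ((n - i : ℕ) : ℝ) / (n : ℝ)) atTop (𝓝 1) := by
    intro i
    have h2 : Tendsto (fun n : ℕ => 1 - (i : ℝ) / (n : ℝ)) atTop (𝓝 (1 - 0)) :=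
      tendsto_const_nhds.sub (tendsto_const_div_atTop_nhds_zero_nat _)
    rw [sub_zero] at h2
    refine h2.congr' ?_
    filter_upwards [eventually_ge_atTop (i + 1)] with n hn
    have hn0 : (0 : ℝ) < n := by exact_mod_cast (by omega : 0 < n)
    rw [Nat.cast_sub (by omega)]
    field_simp
  have h3 : Tendsto (fun n : ℕ => ∏ i ∈ Finset.range a, ((n - i : ℕ) : ℝ) / (n : ℝ)) atTop
      (𝓝 (∏ _i ∈ Finset.range a, (1 : ℝ))) := tendsto_finset_prod _ fun i _ => h1 i
  rw [Finset.prod_const_one] at h3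
  refine h3.congr fun n => ?_
  rw [Nat.descFactorial_eq_prod_range, Finset.prod_div_distrib, Finset.prod_const,
    Finset.card_range]
  push_cast
  rfl

theorem sample_bound (α : E → A) (β : E → B) (W : Ω → Ω' → ℝ)
    (hW : Measurable (Function.uncurry W)) (hW0 : ∀ x y, 0 ≤ W x y) {C : ℝ}
    (hC : ∀ x y, W x y ≤ C) (p : Ω → ℝ) (q : Ω' → ℝ)
    (hTP : ∀ x x' y y', p x ≤ p x' → q y ≤ q y' → W x y' * W x' y ≤ W x y * W x' y')
    (n : ℕ) (hn : 0 < n) :
    (∫ x, ∫ y, W x y ∂ν ∂μ) ^ Fintype.card E ≤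
      tden μ ν α β W * ((n.descFactorial (Fintype.card A) : ℝ) / (n : ℝ) ^ Fintype.card A *
        ((n.descFactorial (Fintype.card B) : ℝ) / (n : ℝ) ^ Fintype.card B)) +
      C ^ Fintype.card E * (1 - (n.descFactorial (Fintype.card A) : ℝ) / (n : ℝ) ^ Fintype.card A *
        ((n.descFactorial (Fintype.card B) : ℝ) / (n : ℝ) ^ Fintype.card B)) := by
  classical
  haveI : Nonempty (Fin n) := ⟨⟨0, hn⟩⟩
  have hn' : (0 : ℝ) < n := by exact_mod_cast hn
  set e : ℕ := Fintype.card E with he
  set P : Measure (Fin n → Ω) := Measure.pi fun _ => μ with hP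
  set Q : Measure (Fin n → Ω') := Measure.pi fun _ => ν with hQ
  -- single integrals
  have hWint : Integrable (Function.uncurry W) (μ.prod ν) := by
    refine Integrable.of_bound hW.aestronglyMeasurable C (Eventually.of_forall fun z => ?_)
    rw [Real.norm_eq_abs]
    change |W z.1 z.2| ≤ C
    rw [abs_of_nonneg (hW0 _ _)]
    exact hC _ _
  set I : ℝ := ∫ x, ∫ y, W x y ∂ν ∂μ with hI
  have hI' : ∫ z, Function.uncurry W z ∂(μ.prod ν) = I := by
    rw [hI, integral_prod _ hWint]
    rfl
  have hmpij : ∀ i j : Fin n, MeasurePreserving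
      (fun z : (Fin n → Ω) × (Fin n → Ω') => (z.1 i, z.2 j)) (P.prod Q) (μ.prod ν) := by
    intro i j
    exact (measurePreserving_eval (fun _ : Fin n => μ) i).prod
      (measurePreserving_eval (fun _ : Fin n => ν) j)
  have hij : ∀ i j : Fin n, ∫ z, W (z.1 i) (z.2 j) ∂(P.prod Q) = I := by
    intro i j
    rw [← hI', ← (hmpij i j).map_eq, integral_map (hmpij i j).measurable.aemeasurable
      hW.aestronglyMeasurable]
    rfl
  have hijint : ∀ i j : Fin n, Integrable (fun z : (Fin n → Ω) × (Fin n → Ω') =>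
      W (z.1 i) (z.2 j)) (P.prod Q) := by
    intro i j
    exact (hmpij i j).integrable_comp_of_integrable hWint
  set F : (Fin n → Ω) × (Fin n → Ω') → ℝ := fun z =>
    (∑ i, ∑ j, W (z.1 i) (z.2 j)) / ((n : ℝ) * n) with hF
  have hFint : Integrable F (P.prod Q) := by
    refine Integrable.div_const ?_ _
    exact integrable_finset_sum _ fun i _ => integrable_finset_sum _ fun j _ => hijint i j
  have hFI : ∫ z, F z ∂(P.prod Q) = I := by
    rw [hF, integral_div, integral_finset_sum _ fun i _ =>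
      integrable_finset_sum _ fun j _ => hijint i j]
    have : ∀ i : Fin n, ∫ z, ∑ j, W (z.1 i) (z.2 j) ∂(P.prod Q) = n * I := by
      intro i
      rw [integral_finset_sum _ fun j _ => hijint i j, Finset.sum_congr rfl fun j _ => hij i j,
        Finset.sum_const, Finset.card_univ, Fintype.card_fin, nsmul_eq_mul]
    rw [Finset.sum_congr rfl fun i _ => this i, Finset.sum_const, Finset.card_univ,
      Fintype.card_fin, nsmul_eq_mul]
    field_simp
  have hF0 : ∀ z, 0 ≤ F z := fun z => div_nonneg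
    (Finset.sum_nonneg fun _ _ => Finset.sum_nonneg fun _ _ => hW0 _ _) (by positivity)
  have hFm : Measurable F := by
    refine Measurable.div_const ?_ _
    refine Finset.measurable_sum _ fun i _ => Finset.measurable_sum _ fun j _ => ?_
    exact hW.comp (hmpij i j).measurable
  have hFC : ∀ z, F z ≤ C := by
    intro z
    rw [hF]
    simp only
    rw [div_le_iff₀ (by positivity)]
    calc ∑ i, ∑ j, W (z.1 i) (z.2 j) ≤ ∑ _i : Fin n, ∑ _j : Fin n, C :=
          Finset.sum_le_sum fun _ _ => Finset.sum_le_sum fun _ _ => hC _ _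
      _ = C * (n * n) := by
          rw [Finset.sum_const, Finset.sum_const, Finset.card_univ, Fintype.card_fin,
            nsmul_eq_mul, nsmul_eq_mul]
          ring
  have hFeint : Integrable (fun z => F z ^ e) (P.prod Q) := by
    refine Integrable.of_bound (hFm.pow_const e).aestronglyMeasurable (C ^ e)
      (Eventually.of_forall fun z => ?_)
    rw [Real.norm_eq_abs, abs_of_nonneg (pow_nonneg (hF0 z) e)]
    exact pow_le_pow_left₀ (hF0 z) (hFC z) e
  -- Jensen
  have jensen : I ^ e ≤ ∫ z, F z ^ e ∂(P.prod Q) := by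
    have := (convexOn_pow e).map_integral_le (f := F) (μ := P.prod Q)
      (continuous_pow e).continuousOn isClosed_Ici (Eventually.of_forall fun z => hF0 z) hFint
      hFeint
    rw [hFI] at this
    exact this
  -- pointwise inequality
  set G : (Fin n → Ω) × (Fin n → Ω') → ℝ := fun z =>
    (∑ w : (A → Fin n) × (B → Fin n), ∏ ed, W (z.1 (w.1 (α ed))) (z.2 (w.2 (β ed)))) /
      ((n : ℝ) ^ Fintype.card A * (n : ℝ) ^ Fintype.card B) with hG
  have hFG : ∀ z, F z ^ e ≤ G z := by
    intro z
    have := sidorenko_pos α β (fun i j : Fin n => W (z.1 i) (z.2 j)) (fun i j => hW0 _ _)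
      (fun i => p (z.1 i)) (fun j => q (z.2 j)) (fun x x' y y' hx hy => hTP _ _ _ _ hx hy)
    rw [Fintype.card_fin] at this
    exact this
  have hwint : ∀ w : (A → Fin n) × (B → Fin n), Integrable
      (fun z : (Fin n → Ω) × (Fin n → Ω') => ∏ ed, W (z.1 (w.1 (α ed))) (z.2 (w.2 (β ed))))
      (P.prod Q) := fun w => int_prod (fun ed => w.1 (α ed)) (fun ed => w.2 (β ed)) hW hW0 hC
  have hGint : Integrable G (P.prod Q) :=
    Integrable.div_const (integrable_finset_sum _ fun w _ => hwint w) _
  have step1 : I ^ e ≤ ∫ z, G z ∂(P.prod Q) :=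
    jensen.trans (integral_mono hFeint hGint hFG)
  -- the integral of `G`
  set t : ℝ := tden μ ν α β W with ht
  have hinj : ∀ w : (A → Fin n) × (B → Fin n), Function.Injective w.1 → Function.Injective w.2 →
      ∫ z, ∏ ed, W (z.1 (w.1 (α ed))) (z.2 (w.2 (β ed))) ∂(P.prod Q) = t := by
    intro w h1 h2
    have hmp := (mp_comp μ w.1 h1).prod (mp_comp ν w.2 h2)
    rw [ht, tden, ← hmp.map_eq, integral_map hmp.measurable.aemeasurable
      (meas_prod α β hW).aestronglyMeasurable]
    rfl
  have hall : ∀ w : (A → Fin n) × (B → Fin n),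
      ∫ z, ∏ ed, W (z.1 (w.1 (α ed))) (z.2 (w.2 (β ed))) ∂(P.prod Q) ≤ C ^ e := by
    intro w
    calc ∫ z, ∏ ed, W (z.1 (w.1 (α ed))) (z.2 (w.2 (β ed))) ∂(P.prod Q)
        ≤ ∫ _z, C ^ e ∂(P.prod Q) := integral_mono (hwint w) (integrable_const _) fun z =>
          (bd_prod (fun ed => w.1 (α ed)) (fun ed => w.2 (β ed)) hW0 hC z).2
      _ = C ^ e := by simp
  have hGI : ∫ z, G z ∂(P.prod Q) = (∑ w : (A → Fin n) × (B → Fin n),
      ∫ z, ∏ ed, W (z.1 (w.1 (α ed))) (z.2 (w.2 (β ed))) ∂(P.prod Q)) /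
      ((n : ℝ) ^ Fintype.card A * (n : ℝ) ^ Fintype.card B) := by
    rw [hG, integral_div, integral_finset_sum _ fun w _ => hwint w]
  set S : Finset ((A → Fin n) × (B → Fin n)) := Finset.univ.filter fun w =>
    Function.Injective w.1 ∧ Function.Injective w.2 with hS
  have hScard : (S.card : ℝ) = (n.descFactorial (Fintype.card A) : ℝ) *
      (n.descFactorial (Fintype.card B) : ℝ) := by
    have h1 : S = (Finset.univ.filter fun w : A → Fin n => Function.Injective w) ×ˢ
        (Finset.univ.filter fun w : B → Fin n => Function.Injective w) := by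
      ext w
      simp [hS, Finset.mem_product]
    have h2 : ∀ (Z : Type) [Fintype Z] [DecidableEq Z],
        (Finset.univ.filter fun w : Z → Fin n => Function.Injective w).card =
        n.descFactorial (Fintype.card Z) := by
      intro Z _ _
      rw [← Fintype.card_subtype, ← Fintype.card_congr (Equiv.subtypeInjectiveEquivEmbedding Z (Fin n)).symm,
        Fintype.card_embedding_eq, Fintype.card_fin]
    rw [h1, Finset.card_product, h2, h2]
    push_cast
    rfl
  have hsum : ∑ w : (A → Fin n) × (B → Fin n),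
      ∫ z, ∏ ed, W (z.1 (w.1 (α ed))) (z.2 (w.2 (β ed))) ∂(P.prod Q) ≤
      S.card * t + (((n : ℝ) ^ Fintype.card A * (n : ℝ) ^ Fintype.card B) - S.card) * C ^ e := by
    rw [← Finset.sum_filter_add_sum_filter_not Finset.univ (fun w =>
      Function.Injective w.1 ∧ Function.Injective w.2)]
    have c1 : ∑ w ∈ S, ∫ z, ∏ ed, W (z.1 (w.1 (α ed))) (z.2 (w.2 (β ed))) ∂(P.prod Q) =
        S.card * t := by
      rw [Finset.sum_congr rfl fun w hw => hinj w (Finset.mem_filter.1 hw).2.1
        (Finset.mem_filter.1 hw).2.2, Finset.sum_const, nsmul_eq_mul]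
    have c2 : ∑ w ∈ Finset.univ.filter (fun w : (A → Fin n) × (B → Fin n) =>
        ¬ (Function.Injective w.1 ∧ Function.Injective w.2)),
        ∫ z, ∏ ed, W (z.1 (w.1 (α ed))) (z.2 (w.2 (β ed))) ∂(P.prod Q) ≤
        (((n : ℝ) ^ Fintype.card A * (n : ℝ) ^ Fintype.card B) - S.card) * C ^ e := by
      have c3 := Finset.card_filter_add_card_filter_not
        (s := (Finset.univ : Finset ((A → Fin n) × (B → Fin n))))
        (fun w => Function.Injective w.1 ∧ Function.Injective w.2)
      rw [Finset.card_univ, Fintype.card_prod, Fintype.card_fun, Fintype.card_fun,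
        Fintype.card_fin] at c3
      have c4 : ((Finset.univ.filter (fun w : (A → Fin n) × (B → Fin n) =>
        ¬ (Function.Injective w.1 ∧ Function.Injective w.2))).card : ℝ) =
        ((n : ℝ) ^ Fintype.card A * (n : ℝ) ^ Fintype.card B) - S.card := by
        rw [eq_sub_iff_add_eq, add_comm]
        exact_mod_cast c3
      rw [← c4]
      calc _ ≤ ∑ _w ∈ Finset.univ.filter (fun w : (A → Fin n) × (B → Fin n) =>
            ¬ (Function.Injective w.1 ∧ Function.Injective w.2)), C ^ e :=
            Finset.sum_le_sum fun w _ => hall w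
        _ = _ := by rw [Finset.sum_const, nsmul_eq_mul]
    rw [← hS, c1]
    linarith
  rw [hGI] at step1
  have hden : (0 : ℝ) < (n : ℝ) ^ Fintype.card A * (n : ℝ) ^ Fintype.card B := by positivity
  refine step1.trans ((div_le_div_of_nonneg_right hsum hden.le).trans (le_of_eq ?_))
  rw [hScard]
  field_simp

/-- **Sidorenko's inequality** for kernels on probability spaces which are log-supermodular with
respect to some positions. -/
theorem sidorenko_prob (α : E → A) (β : E → B) (W : Ω → Ω' → ℝ)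
    (hW : Measurable (Function.uncurry W)) (hW0 : ∀ x y, 0 ≤ W x y) {C : ℝ}
    (hC : ∀ x y, W x y ≤ C) (p : Ω → ℝ) (q : Ω' → ℝ)
    (hTP : ∀ x x' y y', p x ≤ p x' → q y ≤ q y' → W x y' * W x' y ≤ W x y * W x' y') :
    (∫ x, ∫ y, W x y ∂ν ∂μ) ^ Fintype.card E ≤ tden μ ν α β W := by
  have h1 : Tendsto (fun n : ℕ => tden μ ν α β W *
      ((n.descFactorial (Fintype.card A) : ℝ) / (n : ℝ) ^ Fintype.card A *
        ((n.descFactorial (Fintype.card B) : ℝ) / (n : ℝ) ^ Fintype.card B)) +
      C ^ Fintype.card E * (1 - (n.descFactorial (Fintype.card A) : ℝ) / (n : ℝ) ^ Fintype.card A *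
        ((n.descFactorial (Fintype.card B) : ℝ) / (n : ℝ) ^ Fintype.card B))) atTop
      (𝓝 (tden μ ν α β W * (1 * 1) + C ^ Fintype.card E * (1 - 1 * 1))) := by
    have hA := ratio_tendsto (Fintype.card A)
    have hB := ratio_tendsto (Fintype.card B)
    exact (tendsto_const_nhds.mul (hA.mul hB)).add
      (tendsto_const_nhds.mul (tendsto_const_nhds.sub (hA.mul hB)))
  have h2 : tden μ ν α β W * (1 * 1) + C ^ Fintype.card E * (1 - 1 * 1) = tden μ ν α β W := by
    ring
  rw [h2] at h1
  refine ge_of_tendsto h1 ?_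
  filter_upwards [eventually_gt_atTop 0] with n hn
  exact sample_bound α β W hW hW0 hC p q hTP n hn

end main

end Vale.Agent.P050
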