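import Vale.Agent.P050.Lsm

/-!
P050, TP2 kernels: the inequality `t(H_σ, W) ≤ t(H, W) ^ k` for the `k`-lifts of `H`.
-/

namespace Vale.Agent.P050

open Finset

theorem LSM.mul {L : Type*} [Lattice L] {f g : L → ℝ} (hf : LSM f) (hg : LSM g) :
    LSM (fun x => f x * g x) := by
  refine ⟨fun s => mul_nonneg (hf.1 s) (hg.1 s), fun s t => ?_⟩
  calc f s * g s * (f t * g t) = (f s * f t) * (g s * g t) := by ring
    _ ≤ (f (s ⊓ t) * f (s ⊔ t)) * (g (s ⊓ t) * g (s ⊔ t)) :=
      mul_le_mul (hf.2 s t) (hg.2 s t) (mul_nonneg (hg.1 s) (hg.1 t))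
        (mul_nonneg (hf.1 _) (hf.1 _))
    _ = _ := by ring

theorem LSM.prod {L ι : Type*} [Lattice L] (A : Finset ι) {f : ι → L → ℝ}
    (hf : ∀ i ∈ A, LSM (f i)) : LSM (fun x => ∏ i ∈ A, f i x) := by
  classical
  induction A using Finset.induction_on with
  | empty =>
    refine ⟨fun s => by simp, fun s t => by simp⟩
  | insert a A ha ih =>
    simp_rw [Finset.prod_insert ha]
    exact (hf a (Finset.mem_insert_self a A)).mul
      (ih fun i hi => hf i (Finset.mem_insert_of_mem hi))

theorem lsm_prod_fin {k : ℕ} {J : Type*} (G : (J → Bool) → ℝ) (hG : LSM G)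
    (s : Fin k → J → Bool) :
    ∏ i, G (s i) ≤ ∏ i : Fin k, G (fun j => decide (i.val <
      (Finset.univ.filter fun i' => s i' j = true).card)) := by
  have h := lsm_prod G hG s Finset.univ
  rw [Finset.card_univ, Fintype.card_fin, Finset.prod_range] at h
  exact h

section bits

variable {A B E J J' : Type} [Fintype A] [DecidableEq A] [Fintype B] [DecidableEq B]
  [Fintype E] [Fintype J] [DecidableEq J] [Fintype J'] [DecidableEq J']

theorem lift_bits (α : E → A) (β : E → B) (wA : (J → Bool) → ℝ) (hA : LSM wA)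
    (wB : (J' → Bool) → ℝ) (hB : LSM wB) (W : (J → Bool) → (J' → Bool) → ℝ)
    (hW0 : ∀ p q, 0 ≤ W p q)
    (hW : ∀ p p' q q', W p q * W p' q' ≤ W (p ⊓ p') (q ⊓ q') * W (p ⊔ p') (q ⊔ q'))
    (k : ℕ) (σ : E → Equiv.Perm (Fin k)) :
    ∑ x : (A × J) ⊕ (B × J') → Fin k → Bool,
      ((∏ a, ∏ i, wA (fun j => x (Sum.inl (a, j)) i)) *
        (∏ b, ∏ i, wB (fun j => x (Sum.inr (b, j)) i))) *
        ∏ e, ∏ i, W (fun j => x (Sum.inl (α e, j)) i) (fun j => x (Sum.inr (β e, j)) (σ e i)) ≤
    (∑ y : (A × J) ⊕ (B × J') → Bool,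
      ((∏ a, wA (fun j => y (Sum.inl (a, j)))) * (∏ b, wB (fun j => y (Sum.inr (b, j))))) *
        ∏ e, W (fun j => y (Sum.inl (α e, j))) (fun j => y (Sum.inr (β e, j)))) ^ k := by
  refine multi_site' k _ ?_ _ ?_ ?_
  · refine LSM.mul (LSM.mul ?_ ?_) ?_
    · refine LSM.prod _ fun a _ => LSM.prod _ fun i _ => ⟨fun s => hA.1 _, fun s t => hA.2 _ _⟩
    · refine LSM.prod _ fun a _ => LSM.prod _ fun i _ => ⟨fun s => hB.1 _, fun s t => hB.2 _ _⟩
    · refine LSM.prod _ fun e _ => LSM.prod _ fun i _ => ⟨fun s => hW0 _ _, fun s t => hW _ _ _ _⟩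
  · intro y
    exact mul_nonneg (mul_nonneg (Finset.prod_nonneg fun _ _ => hA.1 _)
      (Finset.prod_nonneg fun _ _ => hB.1 _)) (Finset.prod_nonneg fun _ _ => hW0 _ _)
  · intro x
    rw [Finset.prod_mul_distrib, Finset.prod_mul_distrib]
    rw [Finset.prod_comm (s := Finset.univ (α := Fin k)) (t := Finset.univ (α := A)),
      Finset.prod_comm (s := Finset.univ (α := Fin k)) (t := Finset.univ (α := B)),
      Finset.prod_comm (s := Finset.univ (α := Fin k)) (t := Finset.univ (α := E))]
    have h1 : ∏ a, ∏ i, wA (fun j => x (Sum.inl (a, j)) i) ≤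
        ∏ a, ∏ i : Fin k, wA (fun j => decide (i.val <
          (Finset.univ.filter fun i' => x (Sum.inl (a, j)) i' = true).card)) := by
      refine Finset.prod_le_prod (fun a _ => Finset.prod_nonneg fun _ _ => hA.1 _) fun a _ => ?_
      exact lsm_prod_fin wA hA (fun i j => x (Sum.inl (a, j)) i)
    have h2 : ∏ b, ∏ i, wB (fun j => x (Sum.inr (b, j)) i) ≤
        ∏ b, ∏ i : Fin k, wB (fun j => decide (i.val <
          (Finset.univ.filter fun i' => x (Sum.inr (b, j)) i' = true).card)) := by
      refine Finset.prod_le_prod (fun a _ => Finset.prod_nonneg fun _ _ => hB.1 _) fun b _ => ?_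
      exact lsm_prod_fin wB hB (fun i j => x (Sum.inr (b, j)) i)
    have h3 : ∏ e, ∏ i, W (fun j => x (Sum.inl (α e, j)) i)
        (fun j => x (Sum.inr (β e, j)) (σ e i)) ≤
        ∏ e, ∏ i : Fin k, W (fun j => decide (i.val <
          (Finset.univ.filter fun i' => x (Sum.inl (α e, j)) i' = true).card))
          (fun j => decide (i.val <
          (Finset.univ.filter fun i' => x (Sum.inr (β e, j)) i' = true).card)) := by
      refine Finset.prod_le_prod (fun a _ => Finset.prod_nonneg fun _ _ => hW0 _ _) fun e _ => ?_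
      have := lsm_prod_fin (J := J ⊕ J') (fun z => W (fun j => z (Sum.inl j))
        (fun j => z (Sum.inr j))) ⟨fun s => hW0 _ _, fun s t => hW _ _ _ _⟩
        (fun i => Sum.elim (fun j => x (Sum.inl (α e, j)) i)
          (fun j => x (Sum.inr (β e, j)) (σ e i)))
      simp only [Sum.elim_inl, Sum.elim_inr] at this
      refine this.trans (le_of_eq ?_)
      refine Finset.prod_congr rfl fun i _ => ?_
      congr 1
      funext j
      congr 2
      refine Finset.card_bij' (fun i' _ => σ e i') (fun i' _ => (σ e).symm i') ?_ ?_ ?_ ?_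
      · intro i' hi'
        exact Finset.mem_filter.2 ⟨Finset.mem_univ _, (Finset.mem_filter.1 hi').2⟩
      · intro i' hi'
        refine Finset.mem_filter.2 ⟨Finset.mem_univ _, ?_⟩
        rw [Equiv.apply_symm_apply]
        exact (Finset.mem_filter.1 hi').2
      · intro i' _
        exact Equiv.symm_apply_apply _ _
      · intro i' _
        exact Equiv.apply_symm_apply _ _
    refine mul_le_mul (mul_le_mul h1 h2 ?_ ?_) h3 ?_ ?_
    · exact Finset.prod_nonneg fun _ _ => Finset.prod_nonneg fun _ _ => hB.1 _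
    · exact Finset.prod_nonneg fun _ _ => Finset.prod_nonneg fun _ _ => hA.1 _
    · exact Finset.prod_nonneg fun _ _ => Finset.prod_nonneg fun _ _ => hW0 _ _
    · exact mul_nonneg (Finset.prod_nonneg fun _ _ => Finset.prod_nonneg fun _ _ => hA.1 _)
        (Finset.prod_nonneg fun _ _ => Finset.prod_nonneg fun _ _ => hB.1 _)

end bits

/-! ### Chains -/

/-- the thermometer code of a chain -/
def therm {N : ℕ} (x : Fin N) : Fin N → Bool := fun j => decide (j < x)

theorem therm_inj {N : ℕ} : Function.Injective (therm (N := N)) := by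
  intro x y h
  rcases lt_trichotomy x y with h1 | h1 | h1
  · have := congrFun h x
    simp [therm, h1] at this
  · exact h1
  · have := congrFun h y
    simp [therm, h1] at this

theorem therm_inf {N : ℕ} (x y : Fin N) : therm x ⊓ therm y = therm (min x y) := by
  funext j
  simp only [therm, Pi.inf_apply]
  change (decide (j < x) && decide (j < y)) = decide (j < min x y)
  rw [← Bool.decide_and]
  simp [lt_min_iff]

theorem therm_sup {N : ℕ} (x y : Fin N) : therm x ⊔ therm y = therm (max x y) := by
  funext j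
  simp only [therm, Pi.sup_apply]
  change (decide (j < x) || decide (j < y)) = decide (j < max x y)
  rw [← Bool.decide_or]
  simp [lt_max_iff]

open Classical in
/-- indicator of the codes -/
noncomputable def isCode {N : ℕ} (p : Fin N → Bool) : ℝ := if ∃ x, therm x = p then 1 else 0

theorem isCode_therm {N : ℕ} (x : Fin N) : isCode (therm x) = 1 := if_pos ⟨x, rfl⟩

theorem isCode_lsm {N : ℕ} : LSM (isCode (N := N)) := by
  refine ⟨fun s => ?_, fun s t => ?_⟩
  · unfold isCode
    split_ifs <;> norm_num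
  · by_cases hs : ∃ x, therm x = s
    · by_cases ht : ∃ y, therm y = t
      · obtain ⟨x, rfl⟩ := hs
        obtain ⟨y, rfl⟩ := ht
        rw [therm_inf, therm_sup, isCode_therm, isCode_therm, isCode_therm, isCode_therm]
      · have : isCode t = 0 := if_neg ht
        rw [this, mul_zero]
        unfold isCode
        split_ifs <;> norm_num
    · have : isCode s = 0 := if_neg hs
      rw [this, zero_mul]
      unfold isCode
      split_ifs <;> norm_num

open Classical in
/-- extension of a kernel from chains to bits -/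
noncomputable def extW {N M : ℕ} (W : Fin N → Fin M → ℝ) (p : Fin N → Bool) (q : Fin M → Bool) :
    ℝ :=
  if h : (∃ x, therm x = p) ∧ (∃ y, therm y = q) then W h.1.choose h.2.choose else 0

theorem extW_therm {N M : ℕ} (W : Fin N → Fin M → ℝ) (x : Fin N) (y : Fin M) :
    extW W (therm x) (therm y) = W x y := by
  unfold extW
  have h : (∃ x', therm x' = therm x) ∧ (∃ y', therm y' = therm y) := ⟨⟨x, rfl⟩, ⟨y, rfl⟩⟩
  rw [dif_pos h]
  rw [therm_inj h.1.choose_spec, therm_inj h.2.choose_spec]

theorem extW_nonneg {N M : ℕ} {W : Fin N → Fin M → ℝ} (hW0 : ∀ x y, 0 ≤ W x y)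
    (p : Fin N → Bool) (q : Fin M → Bool) : 0 ≤ extW W p q := by
  unfold extW
  split_ifs
  · exact hW0 _ _
  · exact le_rfl

/-- TP2 (log-supermodular) kernels on a product of chains -/
def TP2 {N M : ℕ} (W : Fin N → Fin M → ℝ) : Prop :=
  ∀ x x' y y', x ≤ x' → y ≤ y' → W x y' * W x' y ≤ W x y * W x' y'

theorem extW_lsm {N M : ℕ} {W : Fin N → Fin M → ℝ} (hW0 : ∀ x y, 0 ≤ W x y) (hW : TP2 W)
    (p p' : Fin N → Bool) (q q' : Fin M → Bool) :
    extW W p q * extW W p' q' ≤ extW W (p ⊓ p') (q ⊓ q') * extW W (p ⊔ p') (q ⊔ q') := by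
  have hR : 0 ≤ extW W (p ⊓ p') (q ⊓ q') * extW W (p ⊔ p') (q ⊔ q') :=
    mul_nonneg (extW_nonneg hW0 _ _) (extW_nonneg hW0 _ _)
  by_cases h1 : (∃ x, therm x = p) ∧ (∃ y, therm y = q)
  · by_cases h2 : (∃ x, therm x = p') ∧ (∃ y, therm y = q')
    · obtain ⟨⟨x, rfl⟩, ⟨y, rfl⟩⟩ := h1
      obtain ⟨⟨x', rfl⟩, ⟨y', rfl⟩⟩ := h2
      rw [therm_inf, therm_inf, therm_sup, therm_sup, extW_therm, extW_therm, extW_therm,
        extW_therm]
      rcases le_total x x' with hx | hx <;> rcases le_total y y' with hy | hy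
      · rw [min_eq_left hx, min_eq_left hy, max_eq_right hx, max_eq_right hy]
      · rw [min_eq_left hx, min_eq_right hy, max_eq_right hx, max_eq_left hy]
        exact hW x x' y' y hx hy
      · rw [min_eq_right hx, min_eq_left hy, max_eq_left hx, max_eq_right hy]
        have := hW x' x y y' hx hy
        rw [mul_comm] at this
        exact this
      · rw [min_eq_right hx, min_eq_right hy, max_eq_left hx, max_eq_left hy, mul_comm]
    · have : extW W p' q' = 0 := dif_neg h2
      rw [this, mul_zero]
      exact hR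
  · have : extW W p q = 0 := dif_neg h1
    rw [this, zero_mul]
    exact hR

/-- the number of homomorphisms (weighted) -/
noncomputable def homW {A B E X Y : Type} [Fintype A] [DecidableEq A] [Fintype B] [DecidableEq B]
    [Fintype E] [Fintype X] [Fintype Y] (α : E → A) (β : E → B) (W : X → Y → ℝ) : ℝ :=
  ∑ z : (A → X) × (B → Y), ∏ e, W (z.1 (α e)) (z.2 (β e))

/-- the lift inequality -/
theorem lift_le {A B E : Type} [Fintype A] [DecidableEq A] [Fintype B] [DecidableEq B]
    [Fintype E] (α : E → A) (β : E → B) {N M : ℕ} (W : Fin N → Fin M → ℝ)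
    (hW0 : ∀ x y, 0 ≤ W x y) (hW : TP2 W) (k : ℕ) (σ : E → Equiv.Perm (Fin k)) :
    ∑ z : (A → Fin k → Fin N) × (B → Fin k → Fin M),
      ∏ e, ∏ i, W (z.1 (α e) i) (z.2 (β e) (σ e i)) ≤ homW α β W ^ k := by
  have key := lift_bits α β isCode isCode_lsm isCode isCode_lsm (extW W) (extW_nonneg hW0)
    (extW_lsm hW0 hW) k σ
  have e1 : homW α β W = ∑ y : (A × Fin N) ⊕ (B × Fin M) → Bool,
      ((∏ a, isCode (fun j => y (Sum.inl (a, j)))) *
        (∏ b, isCode (fun j => y (Sum.inr (b, j))))) *
        ∏ e, extW W (fun j => y (Sum.inl (α e, j))) (fun j => y (Sum.inr (β e, j))) := by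
    unfold homW
    refine Fintype.sum_of_injective (fun z : (A → Fin N) × (B → Fin M) =>
      (Sum.elim (fun aj => therm (z.1 aj.1) aj.2) (fun bj => therm (z.2 bj.1) bj.2) :
        (A × Fin N) ⊕ (B × Fin M) → Bool)) ?_ _ _ ?_ ?_
    · intro z z' h
      apply Prod.ext
      · funext a
        apply therm_inj
        funext j
        exact congrFun h (Sum.inl (a, j))
      · funext b
        apply therm_inj
        funext j
        exact congrFun h (Sum.inr (b, j))
    · intro y hy
      by_cases h1 : ∀ a, ∃ x, therm x = fun j => y (Sum.inl (a, j))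
      · by_cases h2 : ∀ b, ∃ x, therm x = fun j => y (Sum.inr (b, j))
        · exfalso
          choose u hu using h1
          choose v hv using h2
          refine hy ⟨(u, v), ?_⟩
          funext c
          rcases c with ⟨a, j⟩ | ⟨b, j⟩
          · exact congrFun (hu a) j
          · exact congrFun (hv b) j
        · push Not at h2
          obtain ⟨b, hb⟩ := h2
          have : isCode (fun j => y (Sum.inr (b, j))) = 0 := if_neg (by simpa using hb)
          rw [Finset.prod_eq_zero (Finset.mem_univ b) this, mul_zero, zero_mul]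
      · push Not at h1
        obtain ⟨a, ha⟩ := h1
        have : isCode (fun j => y (Sum.inl (a, j))) = 0 := if_neg (by simpa using ha)
        rw [Finset.prod_eq_zero (Finset.mem_univ a) this, zero_mul, zero_mul]
    · intro z
      simp only [Sum.elim_inl, Sum.elim_inr]
      have c1 : ∀ a, isCode (fun j => therm (z.1 a) j) = 1 := fun a => isCode_therm _
      have c2 : ∀ b, isCode (fun j => therm (z.2 b) j) = 1 := fun b => isCode_therm _
      have c3 : ∀ e, extW W (fun j => therm (z.1 (α e)) j) (fun j => therm (z.2 (β e)) j) =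
        W (z.1 (α e)) (z.2 (β e)) := fun e => extW_therm _ _ _
      simp only [c1, c2, c3, Finset.prod_const_one, one_mul]
  have e2 : ∑ z : (A → Fin k → Fin N) × (B → Fin k → Fin M),
      ∏ e, ∏ i, W (z.1 (α e) i) (z.2 (β e) (σ e i)) =
      ∑ x : (A × Fin N) ⊕ (B × Fin M) → Fin k → Bool,
      ((∏ a, ∏ i, isCode (fun j => x (Sum.inl (a, j)) i)) *
        (∏ b, ∏ i, isCode (fun j => x (Sum.inr (b, j)) i))) *
        ∏ e, ∏ i, extW W (fun j => x (Sum.inl (α e, j)) i)
          (fun j => x (Sum.inr (β e, j)) (σ e i)) := by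
    refine Fintype.sum_of_injective (fun z : (A → Fin k → Fin N) × (B → Fin k → Fin M) =>
      (Sum.elim (fun aj i => therm (z.1 aj.1 i) aj.2) (fun bj i => therm (z.2 bj.1 i) bj.2) :
        (A × Fin N) ⊕ (B × Fin M) → Fin k → Bool)) ?_ _ _ ?_ ?_
    · intro z z' h
      apply Prod.ext
      · funext a i
        apply therm_inj
        funext j
        exact congrFun (congrFun h (Sum.inl (a, j))) i
      · funext b i
        apply therm_inj
        funext j
        exact congrFun (congrFun h (Sum.inr (b, j))) i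
    · intro y hy
      by_cases h1 : ∀ a i, ∃ x, therm x = fun j => y (Sum.inl (a, j)) i
      · by_cases h2 : ∀ b i, ∃ x, therm x = fun j => y (Sum.inr (b, j)) i
        · exfalso
          choose u hu using h1
          choose v hv using h2
          refine hy ⟨(u, v), ?_⟩
          funext c i
          rcases c with ⟨a, j⟩ | ⟨b, j⟩
          · exact congrFun (hu a i) j
          · exact congrFun (hv b i) j
        · push Not at h2
          obtain ⟨b, i, hb⟩ := h2
          have : isCode (fun j => y (Sum.inr (b, j)) i) = 0 := if_neg (by simpa using hb)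
          have h0 : ∏ i, isCode (fun j => y (Sum.inr (b, j)) i) = 0 :=
            Finset.prod_eq_zero (Finset.mem_univ i) this
          rw [Finset.prod_eq_zero (s := Finset.univ (α := B)) (Finset.mem_univ b) h0, mul_zero,
            zero_mul]
      · push Not at h1
        obtain ⟨a, i, ha⟩ := h1
        have : isCode (fun j => y (Sum.inl (a, j)) i) = 0 := if_neg (by simpa using ha)
        have h0 : ∏ i, isCode (fun j => y (Sum.inl (a, j)) i) = 0 :=
          Finset.prod_eq_zero (Finset.mem_univ i) this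
        rw [Finset.prod_eq_zero (s := Finset.univ (α := A)) (Finset.mem_univ a) h0, zero_mul,
          zero_mul]
    · intro z
      simp only [Sum.elim_inl, Sum.elim_inr]
      have c1 : ∀ a i, isCode (fun j => therm (z.1 a i) j) = 1 := fun a i => isCode_therm _
      have c2 : ∀ b i, isCode (fun j => therm (z.2 b i) j) = 1 := fun b i => isCode_therm _
      have c3 : ∀ e i, extW W (fun j => therm (z.1 (α e) i) j)
        (fun j => therm (z.2 (β e) (σ e i)) j) =
        W (z.1 (α e) i) (z.2 (β e) (σ e i)) := fun e i => extW_therm _ _ _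
      simp only [c1, c2, c3, Finset.prod_const_one, one_mul]
  rw [e1, e2]
  exact key

end Vale.Agent.P050
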