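import Vale.Agent.P050.Maj

/-!
P050, TP2 kernels: products of log-supermodular functions and order statistics.
-/

namespace Vale.Agent.P050

open Finset

/-- nonnegative and log-supermodular -/
def LSM {L : Type*} [Lattice L] (G : L → ℝ) : Prop :=
  (∀ s, 0 ≤ G s) ∧ ∀ s t, G s * G t ≤ G (s ⊓ t) * G (s ⊔ t)

/-- the order statistics of a family of boolean vectors -/
def thr {ι J : Type*} (A : Finset ι) (s : ι → J → Bool) (m : ℕ) : J → Bool :=
  fun i => decide (m ≤ (A.filter fun j => s j i = true).card)

theorem lsm_prod {ι J : Type*} (G : (J → Bool) → ℝ) (hG : LSM G)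
    (s : ι → J → Bool) (A : Finset ι) :
    ∏ j ∈ A, G (s j) ≤ ∏ m ∈ Finset.range A.card, G (thr A s (m + 1)) := by
  classical
  induction A using Finset.induction_on with
  | empty => simp
  | insert a A ha ih =>
    have hthr : ∀ m, thr (insert a A) s (m + 1) = (thr A s m ⊓ s a) ⊔ thr A s (m + 1) := by
      intro m
      funext i
      simp only [thr, Pi.sup_apply, Pi.inf_apply, Finset.filter_insert]
      by_cases hi : s a i = true
      · rw [if_pos hi, Finset.card_insert_of_notMem (fun h => ha (Finset.mem_filter.1 h).1), hi]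
        by_cases h1 : m ≤ (A.filter fun j => s j i = true).card
        · simp [h1]
        · have h2 : ¬ (m + 1 ≤ (A.filter fun j => s j i = true).card) := by omega
          simp [h1, h2]
      · have hi' : s a i = false := by simpa using hi
        rw [if_neg hi, hi']
        simp
    have hmono : ∀ m, thr A s (m + 1) ≤ thr A s m := by
      intro m i
      simp only [thr]
      intro h
      simp only [decide_eq_true_eq] at h ⊢
      omega
    have claim : ∀ M, G (s a) * ∏ m ∈ Finset.range M, G (thr A s (m + 1)) ≤
        (∏ m ∈ Finset.range M, G (thr (insert a A) s (m + 1))) * G (thr A s M ⊓ s a) := by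
      intro M
      induction M with
      | zero =>
        have : thr A s 0 ⊓ s a = s a := by
          funext i
          simp [thr]
        rw [this]
        simp
      | succ M ihM =>
        rw [Finset.prod_range_succ, Finset.prod_range_succ, ← mul_assoc]
        have e1 : (thr A s M ⊓ s a) ⊓ thr A s (M + 1) = thr A s (M + 1) ⊓ s a := by
          rw [inf_right_comm, inf_eq_right.2 (hmono M)]
        have e2 : G (thr A s M ⊓ s a) * G (thr A s (M + 1)) ≤
            G (thr A s (M + 1) ⊓ s a) * G (thr (insert a A) s (M + 1)) := by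
          have := hG.2 (thr A s M ⊓ s a) (thr A s (M + 1))
          rw [e1, ← hthr M] at this
          exact this
        have hP : 0 ≤ ∏ m ∈ Finset.range M, G (thr (insert a A) s (m + 1)) :=
          Finset.prod_nonneg fun _ _ => hG.1 _
        calc G (s a) * (∏ m ∈ Finset.range M, G (thr A s (m + 1))) * G (thr A s (M + 1))
            ≤ (∏ m ∈ Finset.range M, G (thr (insert a A) s (m + 1))) * G (thr A s M ⊓ s a) *
              G (thr A s (M + 1)) := mul_le_mul_of_nonneg_right ihM (hG.1 _)
          _ = (∏ m ∈ Finset.range M, G (thr (insert a A) s (m + 1))) * (G (thr A s M ⊓ s a) *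
              G (thr A s (M + 1))) := by ring
          _ ≤ (∏ m ∈ Finset.range M, G (thr (insert a A) s (m + 1))) *
              (G (thr A s (M + 1) ⊓ s a) * G (thr (insert a A) s (M + 1))) :=
            mul_le_mul_of_nonneg_left e2 hP
          _ = _ := by ring
    rw [Finset.prod_insert ha, Finset.card_insert_of_notMem ha, Finset.prod_range_succ]
    have e3 : thr (insert a A) s (A.card + 1) = thr A s A.card ⊓ s a := by
      rw [hthr]
      have : thr A s (A.card + 1) = ⊥ := by
        funext i
        change decide (A.card + 1 ≤ (A.filter fun j => s j i = true).card) = false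
        rw [decide_eq_false_iff_not, not_le]
        exact Nat.lt_succ_of_le (Finset.card_filter_le _ _)
      rw [this, sup_bot_eq]
    rw [e3]
    exact (mul_le_mul_of_nonneg_left ih (hG.1 _)).trans (claim _)

theorem prod_bool {α : Type*} (A : Finset α) (b : α → Bool) (F : Bool → ℝ) :
    ∏ s ∈ A, F (b s) = F true ^ (A.filter fun s => b s = true).card *
      F false ^ (A.card - (A.filter fun s => b s = true).card) := by
  classical
  rw [← Finset.prod_filter_mul_prod_filter_not A (fun s => b s = true)]
  have h1 : ∏ s ∈ A.filter (fun s => b s = true), F (b s) =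
      F true ^ (A.filter fun s => b s = true).card := by
    rw [Finset.prod_congr rfl (fun s hs => by rw [(Finset.mem_filter.1 hs).2]),
      Finset.prod_const]
  have h2 : ∏ s ∈ A.filter (fun s => ¬ b s = true), F (b s) =
      F false ^ (A.filter fun s => ¬ b s = true).card := by
    rw [← Finset.prod_const]
    refine Finset.prod_congr rfl fun s hs => ?_
    have := (Finset.mem_filter.1 hs).2
    rw [Bool.not_eq_true] at this
    rw [this]
  have h3 : (A.filter fun s => ¬ b s = true).card =
      A.card - (A.filter fun s => b s = true).card := by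
    have := Finset.card_filter_add_card_filter_not (s := A) (fun s => b s = true)
    omega
  rw [h1, h2, h3]

theorem lt_card_iff {k : ℕ} (P : Fin k → Prop) [DecidablePred P]
    (hP : ∀ i j, i ≤ j → P j → P i) (i : Fin k) :
    i.val < (Finset.univ.filter P).card ↔ P i := by
  constructor
  · intro h
    by_contra hn
    have hsub : Finset.univ.filter P ⊆ Finset.Iio i := by
      intro j hj
      rw [Finset.mem_Iio]
      by_contra hij
      exact hn (hP i j (not_lt.1 hij) (Finset.mem_filter.1 hj).2)
    have := Finset.card_le_card hsub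
    rw [Fin.card_Iio] at this
    omega
  · intro h
    have hsub : Finset.Iic i ⊆ Finset.univ.filter P := by
      intro j hj
      rw [Finset.mem_Iic] at hj
      exact Finset.mem_filter.2 ⟨Finset.mem_univ _, hP j i hj h⟩
    have := Finset.card_le_card hsub
    rw [Fin.card_Iic] at this
    omega

theorem single_site {k : ℕ} (G : (Fin k → Bool) → ℝ) (hG : LSM G) (a : Fin k → Bool → ℝ)
    (ha : ∀ i t, 0 ≤ a i t)
    (hle : ∀ s, G s ≤ ∏ i, a i (decide (i.val < (Finset.univ.filter fun j => s j = true).card))) :
    ∑ s, G s ≤ ∏ i, (a i false + a i true) := by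
  classical
  have e0 : ∏ i, (a i false + a i true) = ∑ s : Fin k → Bool, ∏ i, a i (s i) := by
    have h1 : ∀ i, a i false + a i true = ∑ t : Bool, a i t := by
      intro i
      rw [Fintype.sum_bool, add_comm]
    simp_rw [h1]
    rw [Finset.prod_univ_sum]
    rw [Fintype.piFinset_univ]
  rw [e0]
  refine maj _ _ hG.1 (fun s => Finset.prod_nonneg fun i _ => ha i _) ?_
  intro A
  set d : Fin k → ℕ := fun i => (A.filter fun s => s i = true).card with hd
  set τ : Equiv.Perm (Fin k) := Tuple.sort (fun i => OrderDual.toDual (d i)) with hτ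
  have hanti : ∀ i j, i ≤ j → d (τ j) ≤ d (τ i) := by
    intro i j hij
    have := Tuple.monotone_sort (fun i => OrderDual.toDual (d i)) hij
    exact this
  let φ : (Fin k → Bool) ↪ (Fin k → Bool) :=
    ⟨fun s => s ∘ τ, fun s t h => by
      funext i
      have := congrFun h (τ.symm i)
      simpa using this⟩
  refine ⟨A.map φ, Finset.card_map _, ?_⟩
  have hdle : ∀ i, d i ≤ A.card := fun i => Finset.card_filter_le _ _
  -- the right-hand side
  have e1 : ∏ s ∈ A.map φ, ∏ i, a i (s i) =
      ∏ i, (a i true ^ d (τ i) * a i false ^ (A.card - d (τ i))) := by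
    rw [Finset.prod_map, Finset.prod_comm]
    refine Finset.prod_congr rfl fun i _ => ?_
    exact prod_bool A (fun s => s (τ i)) (a i)
  -- the left-hand side
  have e2 : ∏ s ∈ A, G s ≤ ∏ m ∈ Finset.range A.card, G (thr A (fun s => s) (m + 1)) :=
    lsm_prod G hG (fun s => s) A
  have e3 : ∀ m, (Finset.univ.filter fun j => thr A (fun s => s) (m + 1) j = true).card =
      (Finset.univ.filter fun j => m + 1 ≤ d (τ j)).card := by
    intro m
    refine Finset.card_bij' (fun j _ => τ.symm j) (fun j _ => τ j) ?_ ?_ ?_ ?_
    · intro j hj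
      have := (Finset.mem_filter.1 hj).2
      simp only [thr, decide_eq_true_eq] at this
      refine Finset.mem_filter.2 ⟨Finset.mem_univ _, ?_⟩
      rw [Equiv.apply_symm_apply]
      exact this
    · intro j hj
      have := (Finset.mem_filter.1 hj).2
      refine Finset.mem_filter.2 ⟨Finset.mem_univ _, ?_⟩
      simp only [thr, decide_eq_true_eq]
      exact this
    · intro j _
      exact Equiv.apply_symm_apply _ _
    · intro j _
      exact Equiv.symm_apply_apply _ _
  have e4 : ∀ m ∈ Finset.range A.card, G (thr A (fun s => s) (m + 1)) ≤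
      ∏ i, a i (decide (m + 1 ≤ d (τ i))) := by
    intro m _
    refine (hle _).trans (le_of_eq ?_)
    refine Finset.prod_congr rfl fun i _ => ?_
    congr 1
    rw [e3 m]
    have := lt_card_iff (fun j => m + 1 ≤ d (τ j)) (fun i j hij h => h.trans (hanti i j hij)) i
    exact decide_eq_decide.2 this
  have e5 : ∏ m ∈ Finset.range A.card, G (thr A (fun s => s) (m + 1)) ≤
      ∏ m ∈ Finset.range A.card, ∏ i, a i (decide (m + 1 ≤ d (τ i))) :=
    Finset.prod_le_prod (fun _ _ => hG.1 _) e4
  have e6 : ∏ m ∈ Finset.range A.card, ∏ i, a i (decide (m + 1 ≤ d (τ i))) =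
      ∏ i, (a i true ^ d (τ i) * a i false ^ (A.card - d (τ i))) := by
    rw [Finset.prod_comm]
    refine Finset.prod_congr rfl fun i _ => ?_
    rw [prod_bool (Finset.range A.card) (fun m => decide (m + 1 ≤ d (τ i))) (a i)]
    have : ((Finset.range A.card).filter fun m => decide (m + 1 ≤ d (τ i)) = true).card
        = d (τ i) := by
      have h1 : (Finset.range A.card).filter (fun m => decide (m + 1 ≤ d (τ i)) = true) =
          Finset.range (d (τ i)) := by
        ext m
        simp only [Finset.mem_filter, Finset.mem_range, decide_eq_true_eq]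
        have := hdle (τ i)
        omega
      rw [h1, Finset.card_range]
    rw [this, Finset.card_range]
  rw [e1, ← e6]
  exact e2.trans e5

/-- the main inequality for log-supermodular functions of several bits -/
theorem multi_site (k : ℕ) : ∀ (n : ℕ) (g : (Fin n → Fin k → Bool) → ℝ) (_ : LSM g)
    (f : (Fin n → Bool) → ℝ) (_ : ∀ y, 0 ≤ f y)
    (_ : ∀ x, g x ≤ ∏ i : Fin k,
      f (fun v => decide (i.val < (Finset.univ.filter fun j => x v j = true).card))),
    ∑ x, g x ≤ (∑ y, f y) ^ k := by
  intro n
  induction n with
  | zero =>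
    intro g hg f hf hle
    rw [Fintype.sum_unique, Fintype.sum_unique]
    refine (hle _).trans (le_of_eq ?_)
    rw [Finset.prod_congr rfl fun i _ => congrArg f (Subsingleton.elim _ default),
      Finset.prod_const, Finset.card_univ, Fintype.card_fin]
    congr 2
    exact Subsingleton.elim _ _
  | succ n ih =>
    intro g hg f hf hle
    have s1 : ∑ x, g x = ∑ x' : Fin n → Fin k → Bool, ∑ s : Fin k → Bool,
        g (Fin.cons s x' : Fin (n + 1) → Fin k → Bool) := by
      rw [← (Fin.consEquiv (fun _ : Fin (n + 1) => Fin k → Bool)).sum_comp, Fintype.sum_prod_type,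
        Finset.sum_comm]
      rfl
    have s2 : ∑ y, f y = ∑ y' : Fin n → Bool, (f (Fin.cons false y' : Fin (n + 1) → Bool) +
        f (Fin.cons true y' : Fin (n + 1) → Bool)) := by
      rw [← (Fin.consEquiv (fun _ : Fin (n + 1) => Bool)).sum_comp, Fintype.sum_prod_type,
        Finset.sum_comm]
      refine Finset.sum_congr rfl fun y' _ => ?_
      rw [Fintype.sum_bool, add_comm]
      rfl
    rw [s1, s2]
    refine ih (fun x' => ∑ s : Fin k → Bool, g (Fin.cons s x' : Fin (n + 1) → Fin k → Bool))
      ⟨fun x' => Finset.sum_nonneg fun s _ => hg.1 _, ?_⟩ _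
      (fun y' => add_nonneg (hf _) (hf _)) ?_
    · intro x' y'
      refine four_functions_theorem_univ
        (f₁ := fun s => g (Fin.cons s x' : Fin (n + 1) → Fin k → Bool))
        (f₂ := fun s => g (Fin.cons s y' : Fin (n + 1) → Fin k → Bool))
        (f₃ := fun s => g (Fin.cons s (x' ⊓ y') : Fin (n + 1) → Fin k → Bool))
        (f₄ := fun s => g (Fin.cons s (x' ⊔ y') : Fin (n + 1) → Fin k → Bool))
        (fun s => hg.1 _) (fun s => hg.1 _) (fun s => hg.1 _) (fun s => hg.1 _) ?_
      intro s t
      have := hg.2 (Fin.cons s x') (Fin.cons t y')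
      have c1 : (Fin.cons s x' : Fin (n + 1) → Fin k → Bool) ⊓ Fin.cons t y' =
          Fin.cons (s ⊓ t) (x' ⊓ y') := by
        funext i
        refine Fin.cases ?_ (fun j => ?_) i
        · rfl
        · rfl
      have c2 : (Fin.cons s x' : Fin (n + 1) → Fin k → Bool) ⊔ Fin.cons t y' =
          Fin.cons (s ⊔ t) (x' ⊔ y') := by
        funext i
        refine Fin.cases ?_ (fun j => ?_) i
        · rfl
        · rfl
      rw [c1, c2] at this
      exact this
    · intro x'
      refine single_site (fun s => g (Fin.cons s x' : Fin (n + 1) → Fin k → Bool))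
        ⟨fun s => hg.1 _, ?_⟩
        (fun i t => f (Fin.cons t (fun v => decide (i.val <
          (Finset.univ.filter fun j => x' v j = true).card)) : Fin (n + 1) → Bool))
        (fun i t => hf _) ?_
      · intro s t
        have := hg.2 (Fin.cons s x') (Fin.cons t x')
        have c1 : (Fin.cons s x' : Fin (n + 1) → Fin k → Bool) ⊓ Fin.cons t x' =
            Fin.cons (s ⊓ t) x' := by
          funext i
          refine Fin.cases ?_ (fun j => ?_) i
          · rfl
          · exact inf_idem _
        have c2 : (Fin.cons s x' : Fin (n + 1) → Fin k → Bool) ⊔ Fin.cons t x' =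
            Fin.cons (s ⊔ t) x' := by
          funext i
          refine Fin.cases ?_ (fun j => ?_) i
          · rfl
          · exact sup_idem _
        rw [c1, c2] at this
        exact this
      · intro s
        refine (hle _).trans (le_of_eq ?_)
        refine Finset.prod_congr rfl fun i _ => ?_
        congr 1
        funext v
        refine Fin.cases ?_ (fun j => ?_) v
        · rfl
        · rfl

/-- the same for any finite set of bits -/
theorem multi_site' {V : Type*} [Fintype V] [DecidableEq V] (k : ℕ) (g : (V → Fin k → Bool) → ℝ)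
    (hg : LSM g) (f : (V → Bool) → ℝ) (hf : ∀ y, 0 ≤ f y)
    (hle : ∀ x, g x ≤ ∏ i : Fin k,
      f (fun v => decide (i.val < (Finset.univ.filter fun j => x v j = true).card))) :
    ∑ x, g x ≤ (∑ y, f y) ^ k := by
  let e := Fintype.equivFin V
  have s1 : ∑ x, g x = ∑ x : Fin (Fintype.card V) → Fin k → Bool, g (fun v => x (e v)) :=
    ((e.arrowCongr (Equiv.refl (Fin k → Bool))).symm.sum_comp g).symm
  have s2 : ∑ y, f y = ∑ y : Fin (Fintype.card V) → Bool, f (fun v => y (e v)) :=
    ((e.arrowCongr (Equiv.refl Bool)).symm.sum_comp f).symm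
  rw [s1, s2]
  refine multi_site k _ (fun x => g (fun v => x (e v))) ⟨fun x => hg.1 _, fun x y => hg.2 _ _⟩
    (fun y => f (fun v => y (e v))) (fun y => hf _) fun x => hle _

end Vale.Agent.P050
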