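import Mathlib

/-!
P050, TP2 kernels: weak log-majorization implies an inequality of sums.
-/

namespace Vale.Agent.P050

open Finset MeasureTheory intervalIntegral Set

/-- `ψ t s = (log t - log s)_+` -/
noncomputable def psi (t s : ℝ) : ℝ := if s < t then Real.log t - Real.log s else 0

theorem psi_nonneg {t s : ℝ} (hs : 0 < s) : 0 ≤ psi t s := by
  unfold psi
  split_ifs with h
  · have := Real.log_le_log hs h.le
    linarith
  · exact le_rfl

theorem psi_ge {t s : ℝ} (ht : 0 < t) (hs : 0 < s) : Real.log t - Real.log s ≤ psi t s := by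
  unfold psi
  split_ifs with h
  · exact le_rfl
  · have := Real.log_le_log ht (not_lt.1 h)
    linarith

theorem psi_int1 {t : ℝ} (ht : 0 ≤ t) : IntervalIntegrable (psi t) volume 0 t ∧
    ∫ s in (0 : ℝ)..t, psi t s = t := by
  have hI : IntervalIntegrable (fun s => Real.log t - Real.log s) volume 0 t :=
    (intervalIntegrable_const).sub intervalIntegrable_log'
  have hae : ∀ᵐ s ∂volume, s ∈ Set.uIoc 0 t → Real.log t - Real.log s = psi t s := by
    have h1 : ∀ᵐ s ∂(volume : Measure ℝ), s ≠ t := by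
      simp [ae_iff, measure_singleton]
    filter_upwards [h1] with s hs hs2
    rw [Set.uIoc_of_le ht] at hs2
    unfold psi
    rw [if_pos (lt_of_le_of_ne hs2.2 hs)]
  constructor
  · refine hI.congr_ae ?_
    rw [Filter.EventuallyEq, ae_restrict_iff' measurableSet_uIoc]
    exact hae
  · rw [← integral_congr_ae hae, integral_sub intervalIntegrable_const intervalIntegrable_log',
      integral_log, intervalIntegral.integral_const]
    simp

theorem psi_int {t M : ℝ} (ht : 0 ≤ t) (hM : t ≤ M) : IntervalIntegrable (psi t) volume 0 M ∧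
    ∫ s in (0 : ℝ)..M, psi t s = t := by
  obtain ⟨h1, h2⟩ := psi_int1 ht
  have h3 : ∀ s ∈ Set.uIcc t M, (0 : ℝ) = psi t s := by
    intro s hs
    rw [Set.uIcc_of_le hM] at hs
    unfold psi
    rw [if_neg (not_lt.2 hs.1)]
  have h4 : IntervalIntegrable (psi t) volume t M := by
    refine (intervalIntegrable_const (c := (0 : ℝ))).congr ?_
    intro s hs
    exact h3 s (Set.uIoc_subset_uIcc hs)
  refine ⟨h1.trans h4, ?_⟩
  rw [← integral_add_adjacent_intervals h1 h4, h2, ← intervalIntegral.integral_congr h3]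
  simp

/-- weak log-majorization gives an inequality of sums -/
theorem maj {ι : Type*} [Fintype ι] (u v : ι → ℝ) (hu : ∀ i, 0 ≤ u i)
    (hv : ∀ i, 0 ≤ v i) (h : ∀ A : Finset ι, ∃ A' : Finset ι, A'.card = A.card ∧
      ∏ i ∈ A, u i ≤ ∏ i ∈ A', v i) : ∑ i, u i ≤ ∑ i, v i := by
  classical
  set M : ℝ := ∑ i, u i + ∑ i, v i with hM
  have hMu : ∀ i, u i ≤ M := fun i => by
    have h1 := Finset.single_le_sum (fun j _ => hu j) (Finset.mem_univ i)
    have h2 := Finset.sum_nonneg (fun j (_ : j ∈ Finset.univ) => hv j)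
    linarith
  have hMv : ∀ i, v i ≤ M := fun i => by
    have h1 := Finset.single_le_sum (fun j _ => hv j) (Finset.mem_univ i)
    have h2 := Finset.sum_nonneg (fun j (_ : j ∈ Finset.univ) => hu j)
    linarith
  have hM0 : 0 ≤ M := add_nonneg (Finset.sum_nonneg fun j _ => hu j)
    (Finset.sum_nonneg fun j _ => hv j)
  have claim : ∀ s : ℝ, 0 < s → ∑ i, psi (u i) s ≤ ∑ i, psi (v i) s := by
    intro s hs
    obtain ⟨A', hA1, hA2⟩ := h (Finset.univ.filter fun i => s < u i)
    set A := Finset.univ.filter fun i => s < u i with hA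
    have hupos : ∀ i ∈ A, 0 < u i := fun i hi => hs.trans (Finset.mem_filter.1 hi).2
    have hprod : 0 < ∏ i ∈ A, u i := Finset.prod_pos hupos
    have hvpos : ∀ i ∈ A', 0 < v i := by
      intro i hi
      refine lt_of_le_of_ne (hv i) fun h0 => ?_
      have : ∏ i ∈ A', v i = 0 := Finset.prod_eq_zero hi h0.symm
      rw [this] at hA2
      exact absurd hA2 (not_le.2 hprod)
    have e1 : ∑ i, psi (u i) s = ∑ i ∈ A, (Real.log (u i) - Real.log s) := by
      rw [hA, Finset.sum_filter]
      rfl
    have e2 : ∑ i ∈ A, (Real.log (u i) - Real.log s) =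
        Real.log (∏ i ∈ A, u i) - A.card * Real.log s := by
      rw [Finset.sum_sub_distrib, Real.log_prod (fun i hi => (hupos i hi).ne'), Finset.sum_const,
        nsmul_eq_mul]
    have e3 : ∑ i ∈ A', (Real.log (v i) - Real.log s) =
        Real.log (∏ i ∈ A', v i) - A'.card * Real.log s := by
      rw [Finset.sum_sub_distrib, Real.log_prod (fun i hi => (hvpos i hi).ne'), Finset.sum_const,
        nsmul_eq_mul]
    have e4 : Real.log (∏ i ∈ A, u i) ≤ Real.log (∏ i ∈ A', v i) := Real.log_le_log hprod hA2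
    calc ∑ i, psi (u i) s = Real.log (∏ i ∈ A, u i) - A.card * Real.log s := by rw [e1, e2]
      _ ≤ Real.log (∏ i ∈ A', v i) - A'.card * Real.log s := by rw [hA1]; linarith
      _ = ∑ i ∈ A', (Real.log (v i) - Real.log s) := e3.symm
      _ ≤ ∑ i ∈ A', psi (v i) s := Finset.sum_le_sum fun i hi => psi_ge (hvpos i hi) hs
      _ ≤ ∑ i, psi (v i) s :=
        Finset.sum_le_sum_of_subset_of_nonneg (Finset.subset_univ _) fun i _ _ => psi_nonneg hs
  have i1 : ∑ i, u i = ∫ s in (0 : ℝ)..M, ∑ i, psi (u i) s := by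
    rw [intervalIntegral.integral_finsetSum fun i _ => (psi_int (hu i) (hMu i)).1]
    exact Finset.sum_congr rfl fun i _ => (psi_int (hu i) (hMu i)).2.symm
  have i2 : ∑ i, v i = ∫ s in (0 : ℝ)..M, ∑ i, psi (v i) s := by
    rw [intervalIntegral.integral_finsetSum fun i _ => (psi_int (hv i) (hMv i)).1]
    exact Finset.sum_congr rfl fun i _ => (psi_int (hv i) (hMv i)).2.symm
  rw [i1, i2]
  refine intervalIntegral.integral_mono_on_of_le_Ioo hM0 ?_ ?_ fun s hs => claim s hs.1
  · have := IntervalIntegrable.sum Finset.univ fun i _ => (psi_int (hu i) (hMu i)).1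
    refine this.congr fun s _ => ?_
    simp
  · have := IntervalIntegrable.sum Finset.univ fun i _ => (psi_int (hv i) (hMv i)).1
    refine this.congr fun s _ => ?_
    simp

end Vale.Agent.P050
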