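import Vale.Agent.P050.Avg

/-!
P050, TP2 kernels: finite types with positions.
-/

namespace Vale.Agent.P050

open Finset

theorem exists_sort {X : Type} [Fintype X] (p : X → ℝ) :
    ∃ e : Fin (Fintype.card X) ≃ X, ∀ i j, i ≤ j → p (e i) ≤ p (e j) := by
  classical
  let e0 : Fin (Fintype.card X) ≃ X := (Fintype.equivFin X).symm
  exact ⟨(Tuple.sort (p ∘ e0)).trans e0, fun i j hij => Tuple.monotone_sort (p ∘ e0) hij⟩

/-- Sidorenko's inequality for kernels on finite sets which are log-supermodular with respect to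
some positions of the rows and of the columns. -/
theorem sidorenko_pos {A B E X Y : Type} [Fintype A] [DecidableEq A] [Fintype B] [DecidableEq B]
    [Fintype E] [DecidableEq E] [Fintype X] [Nonempty X] [Fintype Y] [Nonempty Y]
    (α : E → A) (β : E → B)
    (W : X → Y → ℝ) (hW0 : ∀ x y, 0 ≤ W x y) (p : X → ℝ) (q : Y → ℝ)
    (hW : ∀ x x' y y', p x ≤ p x' → q y ≤ q y' → W x y' * W x' y ≤ W x y * W x' y') :
    ((∑ x, ∑ y, W x y) / ((Fintype.card X : ℝ) * Fintype.card Y)) ^ Fintype.card E ≤
      homW α β W / ((Fintype.card X : ℝ) ^ Fintype.card A * (Fintype.card Y : ℝ) ^ Fintype.card B) := by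
  obtain ⟨e, he⟩ := exists_sort p
  obtain ⟨e', he'⟩ := exists_sort q
  have h := sidorenko_chain α β (Fintype.card_pos (α := X)) (Fintype.card_pos (α := Y))
    (fun i j => W (e i) (e' j)) (fun i j => hW0 _ _)
    (fun x x' y y' hx hy => hW _ _ _ _ (he _ _ hx) (he' _ _ hy))
  have h1 : ∑ i, ∑ j, W (e i) (e' j) = ∑ x, ∑ y, W x y := by
    rw [← e.sum_comp (fun x => ∑ y, W x y)]
    exact Finset.sum_congr rfl fun i _ => e'.sum_comp (fun y => W (e i) y)
  have h2 : homW α β (fun i j => W (e i) (e' j)) = homW α β W := by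
    unfold homW
    refine Fintype.sum_equiv ((Equiv.arrowCongr (Equiv.refl A) e).prodCongr
      (Equiv.arrowCongr (Equiv.refl B) e')) _ _ fun z => ?_
    rfl
  rw [h1, h2] at h
  exact h

end Vale.Agent.P050
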